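import Mathlib
import Vale.Agent.H50.BinPack.Defs
import Vale.Agent.H50.BinPack.Main
import Vale.Agent.H81.BinPack.X94All
import Vale.Agent.H57.Chain161
import Vale.Agent.H30.Chain185
import Vale.Agent.H30.Chain257
import Vale.Agent.H30.Chain830

/-!
# P302: OPT - LP as a function of OPT, from both sides

`OPT I` is the least number of bins of capacity `1` for the list `I` of rational item sizes and
`LP I` is the value of the Gilmore-Gomory configuration LP (both defined in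
`Vale.Agent.H50.BinPack.Defs`).

Lower bounds.  For every natural number `m` at least `33` (respectively `55`, `63`, `87`,
`278`) there is an instance with sizes in `(0, 1]`, optimum exactly `m`, and `OPT - LP` at
least `2083/1728 = 1.2054...` (respectively `4295/3456 = 1.2427...`, `121/96 = 1.2604...`,
`613/480 = 1.2770...`, `22541/17280 = 1.3044...`).  All five values exceed `6/5`.

Upper bound.  Every instance with sizes in `(0, 1]` and `LP I ≤ 4`, and every such instance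
with `OPT I ≤ 6`, satisfies `OPT I ≤ ⌈LP I⌉ + 1`.

The instances are chains of pair-into-bins gadgets with 94, 161, 185, 257 and 830 items (sizes
`(D + x) / (3 D)` for small integer deviations `x`), padded with items of size `1`; see the
imported files.  The upper bound is `Vale.Agent.H50.BinPack.mirup_small`.
-/

namespace Vale.Agent.Results.P302.A0_StaircaseAndSmallOpt

open Vale.Agent.H50.BinPack

/-- Lower bounds on `OPT - LP` for every optimum from `33`, `55`, `63`, `87`, `278` on, and the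
bound `OPT ≤ ⌈LP⌉ + 1` for all instances with `LP ≤ 4` or `OPT ≤ 6`. -/
theorem result :
    (∀ m : ℕ, 33 ≤ m → ∃ I : List ℚ, (∀ a ∈ I, 0 < a ∧ a ≤ 1) ∧ OPT I = m ∧
      (2083 : ℝ) / 1728 ≤ (OPT I : ℝ) - LP I) ∧
    (∀ m : ℕ, 55 ≤ m → ∃ I : List ℚ, (∀ a ∈ I, 0 < a ∧ a ≤ 1) ∧ OPT I = m ∧
      (4295 : ℝ) / 3456 ≤ (OPT I : ℝ) - LP I) ∧
    (∀ m : ℕ, 63 ≤ m → ∃ I : List ℚ, (∀ a ∈ I, 0 < a ∧ a ≤ 1) ∧ OPT I = m ∧
      (121 : ℝ) / 96 ≤ (OPT I : ℝ) - LP I) ∧
    (∀ m : ℕ, 87 ≤ m → ∃ I : List ℚ, (∀ a ∈ I, 0 < a ∧ a ≤ 1) ∧ OPT I = m ∧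
      (613 : ℝ) / 480 ≤ (OPT I : ℝ) - LP I) ∧
    (∀ m : ℕ, 278 ≤ m → ∃ I : List ℚ, (∀ a ∈ I, 0 < a ∧ a ≤ 1) ∧ OPT I = m ∧
      (22541 : ℝ) / 17280 ≤ (OPT I : ℝ) - LP I) ∧
    (∀ I : List ℚ, (∀ a ∈ I, 0 < a ∧ a ≤ 1) →
      (LP I ≤ 4 → (OPT I : ℤ) ≤ ⌈LP I⌉ + 1) ∧ (OPT I ≤ 6 → (OPT I : ℤ) ≤ ⌈LP I⌉ + 1)) :=
  ⟨Vale.Agent.H81.BinPack.X94All.X94_all,
    Vale.Agent.H57.Chain161.X_gap_all,
    Vale.Agent.H30.Chain185.X_gap_all,
    Vale.Agent.H30.Chain257.X_gap_all,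
    Vale.Agent.H30.Chain830.X_gap_all,
    fun I hI => ⟨fun h => mirup_small I hI (Or.inl h), fun h => mirup_small I hI (Or.inr h)⟩⟩

end Vale.Agent.Results.P302.A0_StaircaseAndSmallOpt
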