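import Mathlib
import Vale.Agent.H50.BinPack.Defs
import Vale.Agent.H50.BinPack.Main
import Vale.Agent.H81.BinPack.X94All
import Vale.Agent.H57.Chain161
import Vale.Agent.H30.Chain185
import Vale.Agent.H30.Chain257
import Vale.Agent.H30.Chain830

/-!
# P302: a lower bound for OPT - LP as a step function of OPT, and the range where it is below 2

`OPT I` is the least number of bins of capacity `1` for the list `I` of rational item sizes and
`LP I` is the value of the Gilmore-Gomory configuration LP (both defined in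
`Vale.Agent.H50.BinPack.Defs`).

Lower bound, as a function of the optimum.  Let `g m` be `22541/17280 = 1.3044...` for
`m ≥ 278`, `613/480 = 1.2770...` for `87 ≤ m < 278`, `121/96 = 1.2604...` for `63 ≤ m < 87`,
`4295/3456 = 1.2427...` for `55 ≤ m < 63` and `2083/1728 = 1.2054...` for `33 ≤ m < 55`.
For every natural number `m ≥ 33` there is an instance with sizes in `(0, 1]`, optimum exactly
`m`, and `OPT - LP ≥ g m`.  All values of `g` exceed `6/5`.

Upper bound.  Every instance with sizes in `(0, 1]` and `LP I ≤ 4` or `OPT I ≤ 6` satisfies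
`OPT I ≤ ⌈LP I⌉ + 1`, and hence `OPT I - LP I < 2`.

The instances are chains of pair-into-bins gadgets with 94, 161, 185, 257 and 830 items (sizes
`(D + x) / (3 D)` for small integer deviations `x`), padded with items of size `1`; see the
imported files.  The upper bound is `Vale.Agent.H50.BinPack.mirup_small`.
-/

namespace Vale.Agent.Results.P302.A1_GapFunctionAndSmallOpt

open Vale.Agent.H50.BinPack

/-- A step-function lower bound for `OPT - LP` at every optimum `m ≥ 33`, and the bounds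
`OPT ≤ ⌈LP⌉ + 1` and `OPT - LP < 2` for all instances with `LP ≤ 4` or `OPT ≤ 6`. -/
theorem result :
    (∀ m : ℕ, 33 ≤ m → ∃ I : List ℚ, (∀ a ∈ I, 0 < a ∧ a ≤ 1) ∧ OPT I = m ∧
      (if 278 ≤ m then (22541 : ℝ) / 17280
        else if 87 ≤ m then (613 : ℝ) / 480
        else if 63 ≤ m then (121 : ℝ) / 96
        else if 55 ≤ m then (4295 : ℝ) / 3456
        else (2083 : ℝ) / 1728) ≤ (OPT I : ℝ) - LP I) ∧
    (∀ I : List ℚ, (∀ a ∈ I, 0 < a ∧ a ≤ 1) → (LP I ≤ 4 ∨ OPT I ≤ 6) →
      (OPT I : ℤ) ≤ ⌈LP I⌉ + 1 ∧ (OPT I : ℝ) - LP I < 2) := by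
  refine ⟨fun m hm => ?_, fun I hI h => ?_⟩
  · by_cases h1 : 278 ≤ m
    · obtain ⟨I, hI, hO, hg⟩ := Vale.Agent.H30.Chain830.X_gap_all m h1
      exact ⟨I, hI, hO, by rw [if_pos h1]; exact hg⟩
    · by_cases h2 : 87 ≤ m
      · obtain ⟨I, hI, hO, hg⟩ := Vale.Agent.H30.Chain257.X_gap_all m h2
        exact ⟨I, hI, hO, by rw [if_neg h1, if_pos h2]; exact hg⟩
      · by_cases h3 : 63 ≤ m
        · obtain ⟨I, hI, hO, hg⟩ := Vale.Agent.H30.Chain185.X_gap_all m h3
          exact ⟨I, hI, hO, by rw [if_neg h1, if_neg h2, if_pos h3]; exact hg⟩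
        · by_cases h4 : 55 ≤ m
          · obtain ⟨I, hI, hO, hg⟩ := Vale.Agent.H57.Chain161.X_gap_all m h4
            exact ⟨I, hI, hO, by rw [if_neg h1, if_neg h2, if_neg h3, if_pos h4]; exact hg⟩
          · obtain ⟨I, hI, hO, hg⟩ := Vale.Agent.H81.BinPack.X94All.X94_all m hm
            exact ⟨I, hI, hO, by rw [if_neg h1, if_neg h2, if_neg h3, if_neg h4]; exact hg⟩
  · have h1 : (OPT I : ℤ) ≤ ⌈LP I⌉ + 1 := mirup_small I hI h
    refine ⟨h1, ?_⟩
    have h2 : ((OPT I : ℤ) : ℝ) ≤ ((⌈LP I⌉ + 1 : ℤ) : ℝ) := by exact_mod_cast h1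
    have h3 : ((⌈LP I⌉ : ℤ) : ℝ) < LP I + 1 := Int.ceil_lt_add_one (LP I)
    push_cast at h2
    linarith

end Vale.Agent.Results.P302.A1_GapFunctionAndSmallOpt
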