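import Mathlib
import Vale.Agent.H50.BinPack.Defs
import Vale.Agent.H30.Chain257

/-!
# P302: for every m >= 87 a bin packing instance with OPT = m and OPT - LP at least 613/480

For every natural number m >= 87 there is a bin packing instance I (a list of rational sizes,
all positive and at most 1) whose optimal number of bins OPT I is exactly m and exceeds the
value LP I of the Gilmore-Gomory configuration LP by at least 613/480 = 1.2770...
(OPT and LP are defined in Vale.Agent.H50.BinPack.Defs.)

The base instance (m = 87) has 257 items with sizes (D + x) / (3 D), D = 10^24, where the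
integer deviations x form a four-level chain of pair-into-bins gadgets
(Vale.Agent.H30.Chain257); larger optima are obtained by adding items of size 1.
-/

namespace Vale.Agent.Results.P302.A_GapAll613

open Vale.Agent.H50.BinPack

/-- For every m >= 87: an instance with optimum exactly m and OPT - LP at least 613/480. -/
theorem result : ∀ m : ℕ, 87 ≤ m → ∃ I : List ℚ, (∀ a ∈ I, 0 < a ∧ a ≤ 1) ∧ OPT I = m ∧
    (613 : ℝ) / 480 ≤ (OPT I : ℝ) - LP I :=
  Vale.Agent.H30.Chain257.X_gap_all

end Vale.Agent.Results.P302.A_GapAll613
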