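import Mathlib
import Vale.Agent.H50.BinPack.Defs
import Vale.Agent.H50.BinPack.Main

/-!
# P302: the modified integer round-up bound for instances with small optimum

For every bin packing instance `I` (a list of rational sizes in `(0, 1]`):
* if `LP I ≤ 4` then `OPT I ≤ ⌈LP I⌉ + 1`;
* if `OPT I ≤ 6` then `OPT I ≤ ⌈LP I⌉ + 1`.

Here `OPT I` is the least number of bins of capacity `1` and `LP I` is the value of the
Gilmore-Gomory configuration LP (see `Vale.Agent.H50.BinPack.Defs`).  The proof reduces to
the items of size more than `1/4` (the other items are added greedily) and uses explicit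
dual solutions of the configuration LP.
-/

namespace Vale.Agent.Results.P302.B_SmallOptMirup

open Vale.Agent.H50.BinPack

theorem result : ∀ I : List ℚ, (∀ a ∈ I, 0 < a ∧ a ≤ 1) →
    (LP I ≤ 4 → (OPT I : ℤ) ≤ ⌈LP I⌉ + 1) ∧ (OPT I ≤ 6 → (OPT I : ℤ) ≤ ⌈LP I⌉ + 1) :=
  fun I hI => ⟨fun h => mirup_small I hI (Or.inl h), fun h => mirup_small I hI (Or.inr h)⟩

end Vale.Agent.Results.P302.B_SmallOptMirup
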