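import Mathlib
import Vale.Agent.H50.BinPack.Defs
import Vale.Agent.H30.Chain830

/-!
# P302: a bin packing instance with OPT - LP at least 22541/17280 > 1.3

There is a bin packing instance I (a list of rational sizes, all positive and at most 1)
whose optimal number of bins OPT I exceeds the value LP I of the Gilmore-Gomory
configuration LP by at least 22541/17280 = 1.3044...  This is larger than 6/5, 5/4, 613/480
and 13/10.  (OPT and LP are defined in Vale.Agent.H50.BinPack.Defs.)

The instance has 830 items with sizes (D + x) / (3 D), D = 10^38, where the integer
deviations x form a five-level chain of pair-into-bins gadgets (Vale.Agent.H30.Chain830); the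
three upper levels use nested gadgets with 22, 46 and 190 bins.  The lower bound OPT >= 278
comes from the counting theorem chain_deficient (every family of disjoint triples of total
deviation at most 0 leaves at least 5 items uncovered) together with kernel-checked pair bounds
of the gadgets; the upper bound LP <= 4781299/17280 is an explicit fractional solution checked
in the kernel.
-/

namespace Vale.Agent.Results.P302.C_Gap22541

open Vale.Agent.H50.BinPack

/-- A bin packing instance with OPT - LP at least 22541/17280. -/
theorem result : ∃ I : List ℚ, (∀ a ∈ I, 0 < a ∧ a ≤ 1) ∧
    (22541 : ℝ) / 17280 ≤ (OPT I : ℝ) - LP I :=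
  ⟨_, Vale.Agent.H30.Chain830.X_gap.1, Vale.Agent.H30.Chain830.X_gap.2⟩

end Vale.Agent.Results.P302.C_Gap22541
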